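import Vale.Agent.P281.H713.CO.Lin
import Vale.Agent.P281.H713.SA.T4

/-! P281, theorem CO: pull-backs of top forms at the generic points of the preimage of an SNC
divisor. -/

open scoped Manifold ContDiff Topology
open Set Filter Metric Vale.Agent.P281 Vale.Agent.P272.K
open Vale.Agent.P281.MF Vale.Agent.P281.ISO Vale.Agent.P281.ELL Vale.Agent.P281.H713

set_option linter.all false

noncomputable section

namespace Vale.Agent.P281.H713.CO

open Vale.Agent.P281.H713.TZ Vale.Agent.P281.H713.SA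

variable {n p : ℕ} {Z Y : Type} [TopologicalSpace Z] [ChartedSpace (Cm n) Z]
  [IsManifold 𝓘(ℂ, Cm n) ω Z] [TopologicalSpace Y] [ChartedSpace (Cm p) Y]
  [IsManifold 𝓘(ℂ, Cm p) ω Y]

theorem dV_pow_mul {e w : Z → ℂ} {z : Z} (h1 : HolV (Cm n) e z) (h2 : HolV (Cm n) w z) {κ : ℕ}
    (hκ : 0 < κ) : dV (Cm n) (fun z => e z ^ κ * w z) z =
        e z ^ (κ - 1) • ((κ * w z) • dV (Cm n) e z + e z • dV (Cm n) w z) := by
  have h9 : HolV (Cm n) (fun z => e z ^ κ) z := h1.pow κ
  have h10 : dV (Cm n) (fun z => e z ^ κ) z = (κ * e z ^ (κ - 1)) • dV (Cm n) e z := by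
    have h11 := dV_comp_contDiff (G := fun t : ℂ => t ^ κ) (contDiff_id.pow κ).contDiffAt h1
    rw [h11]
    have h12 : fderiv ℂ (fun t : ℂ => t ^ κ) (e z) =
        (κ * e z ^ (κ - 1)) • ContinuousLinearMap.id ℂ ℂ := by
      refine ContinuousLinearMap.ext_ring ?_
      rw [fderiv_eq_smul_deriv]
      simp
    rw [h12]
    rfl
  have h13 := dV_smul h9 h2
  have h14 : dV (Cm n) (fun z => e z ^ κ * w z) z =
    e z ^ κ • dV (Cm n) w z + (dV (Cm n) (fun z => e z ^ κ) z).smulRight (w z) := h13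
  rw [h14, h10]
  ext v
  simp only [ContinuousLinearMap.add_apply, ContinuousLinearMap.smul_apply, smul_eq_mul,
    ContinuousLinearMap.smulRight_apply]
  have h15 : e z ^ κ = e z ^ (κ - 1) * e z := by
    rw [← pow_succ, Nat.sub_add_cancel hκ]
  rw [h15]
  ring

/-- `f^*(dy_1 ∧ … ∧ dy_p)` is divisible by `e^{∑ κ - 1}` -/
theorem det_bound_s {f : Z → Y} {y : Z} {y₀ : Y} {c : Z → Cm n}
    (hf : ∀ z, HolM (Cm n) (Cm p) f z) (hy : f y ∈ (chartAt (Cm p) y₀).source)
    (hc : HolV (Cm n) c y) (hu : IsUnit (dV (Cm n) c y)) {α : Type} [Fintype α] (a₁ : α)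
    {e : Z → ℂ} (he : HolV (Cm n) e y) {w : α → Z → ℂ} (hw : ∀ a, HolV (Cm n) (w a) y)
    (hw0 : w a₁ y ≠ 0) {g : α → Y → ℂ} (hg : ∀ a, HolV (Cm p) (g a) (f y))
    (hdg : Function.Surjective fun (ξ : Cm p) (a : α) => dif (Cm p) (g a) (f y) ξ)
    {κ : α → ℕ} (hκ : ∀ a, 0 < κ a) (heq : ∀ a, ∀ᶠ z in 𝓝 y, g a (f z) = e z ^ κ a * w a z)
    (K : Fin p → Fin n) : ∃ C : ℝ, 0 ≤ C ∧ ∀ᶠ z in 𝓝 y, e z ≠ 0 →
      ‖(mK ((dV (Cm n) (fun z => (chartAt (Cm p) y₀ : Y → Cm p) (f z)) z).comp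
        (Ring.inverse (dV (Cm n) c z))) K).det‖ ≤ C * ‖e z‖ ^ (∑ a, κ a - 1) := by
  classical
  set ψ := chartAt (Cm p) y₀ with hψ
  have hfc : ContinuousAt f y := (hf y).continuousAt
  have hψf : HolV (Cm n) (fun z => ψ (f z)) y :=
    HolV.comp (h := (ψ : Y → Cm p)) (HolV.chart hy) (hf y)
  set γ : α → Z → (Cm p →L[ℂ] ℂ) := fun a z => fderiv ℂ (g a ∘ ψ.symm) (ψ (f z)) with hγ
  have hγh : ∀ a, HolV (Cm n) (γ a) y := fun a =>
    HolV.comp_contDiff (G := fderiv ℂ (g a ∘ ψ.symm)) (((hg a).rep hy).fderiv_right (by simp)) hψf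
  have hγs : Function.Surjective fun (ξ : Cm p) (a : α) => γ a y ξ := by
    intro v
    obtain ⟨ξ, hξ⟩ := hdg v
    refine ⟨dV (Cm p) (ψ : Y → Cm p) (f y) ξ, ?_⟩
    rw [← hξ]
    funext a
    have h1 := dV_eq_chart hy (hg a)
    show γ a y (dV (Cm p) (ψ : Y → Cm p) (f y) ξ) = dif (Cm p) (g a) (f y) ξ
    rw [dif_eq_dV, h1]
    rfl
  obtain ⟨σ, hσ, hdet⟩ := exists_compl (fun a => γ a y) hγs
  set B : Z → (Cm p →L[ℂ] Cm p) := fun z => ContinuousLinearMap.pi
    (Function.extend σ (fun a => γ a z) fun i => ContinuousLinearMap.proj i) with hB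
  have hBσ : ∀ z a v, B z v (σ a) = γ a z v := by
    intro z a v
    have h1 := hσ.extend_apply (fun a => γ a z)
      (fun i => (ContinuousLinearMap.proj i : Cm p →L[ℂ] ℂ)) a
    show (Function.extend σ (fun a => γ a z)
      (fun i => (ContinuousLinearMap.proj i : Cm p →L[ℂ] ℂ)) (σ a)) v = _
    rw [h1]
  have hBn : ∀ z i v, (¬ ∃ a, σ a = i) → B z v i = v i := by
    intro z i v hi
    have h1 := Function.extend_apply' (fun a => γ a z)
      (fun i => (ContinuousLinearMap.proj i : Cm p →L[ℂ] ℂ)) i hi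
    show (Function.extend σ (fun a => γ a z)
      (fun i => (ContinuousLinearMap.proj i : Cm p →L[ℂ] ℂ)) i) v = _
    rw [h1]
    rfl
  set dB : Z → ℂ := fun z => Matrix.det (Matrix.of fun i j : Fin p => B z (Pi.single j 1) i)
    with hdB
  have hBd : ∀ z, (B z).det = dB z := by
    intro z
    have h1 : (B z).det = Matrix.det (LinearMap.toMatrix' (B z : Cm p →ₗ[ℂ] Cm p)) := by
      rw [LinearMap.det_toMatrix']
    rw [h1, hdB]
    congr 1
  have hdBc : ContinuousAt dB y := by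
    have h1 : ContinuousAt (fun z => (Matrix.of fun i j : Fin p => B z (Pi.single j 1) i)) y := by
      refine continuousAt_pi.2 fun i => continuousAt_pi.2 fun j => ?_
      simp only [Matrix.of_apply]
      by_cases hi : ∃ a, σ a = i
      · obtain ⟨a, rfl⟩ := hi
        simp only [hBσ]
        exact (hγh a).continuousAt.clm_apply continuousAt_const
      · have h2 : (fun z => B z (Pi.single j 1 : Cm p) i) = fun z => (Pi.single j 1 : Cm p) i := by
          funext z
          exact hBn z i _ hi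
        rw [h2]
        exact continuousAt_const
    exact (Continuous.matrix_det continuous_id).continuousAt.comp h1
  have hdB0 : dB y ≠ 0 := by
    rw [← hBd]
    exact hdet
  set 𝒜 : Z → (Cm n →L[ℂ] Cm p) := fun z =>
    (dV (Cm n) (fun z => ψ (f z)) z).comp (Ring.inverse (dV (Cm n) c z)) with h𝒜
  have h𝒜h : HolV (Cm n) 𝒜 y := holV_quot hψf hc hu
  set Re : Z → (Cm n →L[ℂ] ℂ) := fun z =>
    (dV (Cm n) e z).comp (Ring.inverse (dV (Cm n) c z)) with hRe
  have hReh : HolV (Cm n) Re y := holV_quot he hc hu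
  set Rw : α → Z → (Cm n →L[ℂ] ℂ) := fun a z =>
    (dV (Cm n) (w a) z).comp (Ring.inverse (dV (Cm n) c z)) with hRw
  have hRwh : ∀ a, HolV (Cm n) (Rw a) y := fun a => holV_quot (hw a) hc hu
  have hkey : ∀ a, ∀ᶠ z in 𝓝 y, ∀ v, γ a z (𝒜 z v) =
      e z ^ (κ a - 1) * (κ a * w a z * Re z v + e z * Rw a z v) := by
    intro a
    filter_upwards [he.eventually, (hw a).eventually, (heq a).eventually_nhds,
      hfc.eventually (HolV.eventually (E := Cm p) (hg a)),
      hfc.eventually (ψ.open_source.mem_nhds hy)] with z h1 h2 h3 h4 h5 v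
    have h6 : (γ a z).comp (dV (Cm n) (fun z => ψ (f z)) z) = dV (Cm n) (fun z => g a (f z)) z := by
      rw [dV_comp h4 (hf z), dV_comp (h := (ψ : Y → Cm p)) (HolV.chart h5) (hf z),
        dV_eq_chart h5 h4]
      rfl
    have h7 : dV (Cm n) (fun z => g a (f z)) z = dV (Cm n) (fun z => e z ^ κ a * w a z) z := by
      exact Filter.EventuallyEq.mfderiv_eq h3
    have h8 := dV_pow_mul h1 h2 (hκ a)
    have h9 := congrArg (fun T : Cm n →L[ℂ] ℂ => T (Ring.inverse (dV (Cm n) c z) v))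
      (h6.trans (h7.trans h8))
    simp only [ContinuousLinearMap.comp_apply, ContinuousLinearMap.smul_apply,
      ContinuousLinearMap.add_apply, smul_eq_mul] at h9
    exact h9
  set M : Z → Matrix (Fin p) (Fin p) ℂ := fun z => mK ((B z).comp (𝒜 z)) K with hM
  set N : Z → Matrix (Fin p) (Fin p) ℂ := fun z => Function.extend σ (fun a b =>
      if a = a₁ then κ a₁ * w a₁ z * Re z (Pi.single (K b) 1) +
        e z * Rw a₁ z (Pi.single (K b) 1) else
        Rw a z (Pi.single (K b) 1) - (κ a * w a z) / (κ a₁ * w a₁ z) *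
          Rw a₁ z (Pi.single (K b) 1)) (fun i b => M z i b) with hN
  have hMi : ∀ z i b, M z i b = B z (𝒜 z (Pi.single (K b) 1)) i := fun z i b => rfl
  have hNc : ContinuousAt (fun z => (N z).det) y := by
    have hκ₁ : (κ a₁ : ℂ) * w a₁ y ≠ 0 := mul_ne_zero (by exact_mod_cast (hκ a₁).ne') hw0
    have h1 : ContinuousAt N y := by
      refine continuousAt_pi.2 fun i => continuousAt_pi.2 fun b => ?_
      have hcR : ContinuousAt (fun z => Re z (Pi.single (K b) 1)) y :=
        hReh.continuousAt.clm_apply continuousAt_const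
      have hcw : ∀ a, ContinuousAt (fun z => Rw a z (Pi.single (K b) 1)) y := fun a =>
        (hRwh a).continuousAt.clm_apply continuousAt_const
      by_cases hi : ∃ a, σ a = i
      · obtain ⟨a, rfl⟩ := hi
        have h2 : (fun z => N z (σ a) b) = fun z => if a = a₁ then
            κ a₁ * w a₁ z * Re z (Pi.single (K b) 1) + e z * Rw a₁ z (Pi.single (K b) 1) else
            Rw a z (Pi.single (K b) 1) - (κ a * w a z) / (κ a₁ * w a₁ z) *
            Rw a₁ z (Pi.single (K b) 1) := by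
          funext z
          exact congrFun (hσ.extend_apply _ _ a) b
        rw [h2]
        by_cases ha : a = a₁
        · simp only [if_pos ha]
          exact ((continuousAt_const.mul (hw a₁).continuousAt).mul hcR).add
            (he.continuousAt.mul (hcw a₁))
        · simp only [if_neg ha]
          exact (hcw a).sub (((continuousAt_const.mul (hw a).continuousAt).div
            (continuousAt_const.mul (hw a₁).continuousAt) hκ₁).mul (hcw a₁))
      · have h2 : (fun z => N z i b) = fun z => 𝒜 z (Pi.single (K b) 1) i := by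
          funext z
          have h3 : N z i b = M z i b := congrFun (Function.extend_apply' _ _ _ hi) b
          rw [h3, hMi, hBn z i _ hi]
        rw [h2]
        exact continuousAt_pi.1 (h𝒜h.continuousAt.clm_apply continuousAt_const) i
    exact (Continuous.matrix_det continuous_id).continuousAt.comp h1
  refine ⟨‖(N y).det / dB y‖ + 1, by positivity, ?_⟩
  have h1 : ∀ᶠ z in 𝓝 y, ∀ a, ∀ v, γ a z (𝒜 z v) =
      e z ^ (κ a - 1) * (κ a * w a z * Re z v + e z * Rw a z v) := eventually_all.2 hkey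
  filter_upwards [h1, hdBc.eventually_ne hdB0, (hw a₁).continuousAt.eventually_ne hw0,
    (hNc.div hdBc hdB0).norm.eventually_lt_const (lt_add_one ‖(N y).det / dB y‖)]
    with z h2 h3 h4 h5 he0
  have h6 := det_factor hσ (M z) a₁ he0 hκ (u := fun a => w a z) h4
    (fun b => Re z (Pi.single (K b) 1)) (fun a b => Rw a z (Pi.single (K b) 1)) (by
      intro a b
      rw [hMi, hBσ, h2])
  have h7 : (M z).det = dB z * (mK (𝒜 z) K).det := by
    rw [← hBd]
    exact mnr_comp (B z) (𝒜 z) K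
  have h8 : (mK (𝒜 z) K).det = e z ^ (∑ a, κ a - 1) * ((N z).det / dB z) := by
    rw [mul_div_assoc', eq_div_iff h3, mul_comm, ← h7, h6]
  rw [h8, norm_mul, norm_pow, mul_comm]
  exact mul_le_mul_of_nonneg_right h5.le (by positivity)

/-- the bound for the tensor -/
theorem tq_bound_s {f : Z → Y} {y : Z} {y₀ : Y} {c : Z → Cm n}
    (hf : ∀ z, HolM (Cm n) (Cm p) f z) (hy : f y ∈ (chartAt (Cm p) y₀).source)
    (hc : HolV (Cm n) c y) (hu : IsUnit (dV (Cm n) c y)) {α : Type} [Fintype α] (a₁ : α)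
    {e : Z → ℂ} (he : HolV (Cm n) e y) {w : α → Z → ℂ} (hw : ∀ a, HolV (Cm n) (w a) y)
    (hw0 : w a₁ y ≠ 0) {g : α → Y → ℂ} (hg : ∀ a, HolV (Cm p) (g a) (f y))
    (hdg : Function.Surjective fun (ξ : Cm p) (a : α) => dif (Cm p) (g a) (f y) ξ)
    {κ : α → ℕ} (hκ : ∀ a, 0 < κ a) (heq : ∀ a, ∀ᶠ z in 𝓝 y, g a (f z) = e z ^ κ a * w a z)
    (m : ℕ) (I : Fin (m * p) → Fin n) : ∃ C : ℝ, 0 ≤ C ∧ ∀ᶠ z in 𝓝 y, e z ≠ 0 →
      ‖tq m ((dV (Cm n) (fun z => (chartAt (Cm p) y₀ : Y → Cm p) (f z)) z).comp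
        (Ring.inverse (dV (Cm n) c z))) I‖ ≤ C * ‖e z‖ ^ (m * (∑ a, κ a - 1)) := by
  choose C hC0 hC using fun r : Fin m => det_bound_s hf hy hc hu a₁ he hw hw0 hg hdg hκ heq
    (fun b => I (finProdFinEquiv (r, b)))
  refine ⟨∏ r, C r, Finset.prod_nonneg fun r _ => hC0 r, ?_⟩
  filter_upwards [eventually_all.2 hC] with z hz he0
  unfold tq
  rw [norm_prod]
  calc ∏ r : Fin m, ‖(mK ((dV (Cm n) (fun z => (chartAt (Cm p) y₀ : Y → Cm p) (f z)) z).comp
        (Ring.inverse (dV (Cm n) c z))) fun b => I (finProdFinEquiv (r, b))).det‖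
      ≤ ∏ r : Fin m, (C r * ‖e z‖ ^ (∑ a, κ a - 1)) :=
        Finset.prod_le_prod (fun r _ => norm_nonneg _) fun r _ => hz r he0
    _ = (∏ r, C r) * ‖e z‖ ^ (m * (∑ a, κ a - 1)) := by
        rw [Finset.prod_mul_distrib, Finset.prod_const, Finset.card_univ, Fintype.card_fin,
          ← pow_mul, mul_comm m]

end Vale.Agent.P281.H713.CO
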