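import Vale.Agent.P281.H713.CO.GLoc2
import Vale.Agent.P281.H787.TA

/-! P281, theorem CO: local extension of pull-backs by morphisms of orbifolds. -/

open scoped Manifold ContDiff Topology
open Set Filter Metric Vale.Agent.P281 Vale.Agent.P272.K
open Vale.Agent.P281.MF Vale.Agent.P281.ISO Vale.Agent.P281.ELL Vale.Agent.P281.H713

set_option linter.all false

noncomputable section

namespace Vale.Agent.P281.H713.CO

open Vale.Agent.P281.H713.TZ Vale.Agent.P281.H713.SA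

variable {n p : ℕ} {Z Y : Type} [TopologicalSpace Z] [ChartedSpace (Cm n) Z]
  [IsManifold 𝓘(ℂ, Cm n) ω Z] [TopologicalSpace Y] [ChartedSpace (Cm p) Y]
  [IsManifold 𝓘(ℂ, Cm p) ω Y]

theorem tens_localG (hgen : GenPart) {f : Z → Y} (hf : ∀ z, HolM (Cm n) (Cm p) f z)
    {Γ : Set Y → ℝ} (hΓ1 : ∀ G, Γ G ≤ 1) {Δ' : Set Z → ℝ} (hΔ' : J.IsSNC (Cm n) Δ')
    (hmor : IsOrbMor (Cm n) (Cm p) f Δ' Γ)
    {S : Set Y} (hS : IsClosed S) (hd : Dense {z | f z ∉ S})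
    (hΓ : ∀ z, f z ∈ S → z ∈ closure {z' | f z' ∈ S ∧ ∀ᶠ y in 𝓝 (f z'), IsSNCAt (Cm p) Γ y})
    {m : ℕ} (hm : 0 < m)
    {k : Set Y → ℕ} (hk : ∀ G, (k G : ℝ) = m * Γ G) (hkS : ∀ y, y ∈ S ↔ ∃ G, k G ≠ 0 ∧ y ∈ G)
    {K : Set Z → ℕ} (hK : ∀ D, (K D : ℝ) = m * Δ' D)
    {σ : Y → ℂ} (hσ : IsSection (Cm p) (fun (G : Set Y) z g => IsLocalEq (Cm p) G g z) m k σ)
    {c : Z → Cm n} {z₀ : Z} (hc : HolV (Cm n) c z₀) (hcu : IsUnit (dV (Cm n) c z₀))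
    (I : Fin (m * p) → Fin n) {T : Finset (Set Z)} {gT : Set Z → Z → ℂ}
    (hT : ∀ D, K D ≠ 0 → D ∈ T) (hgT : ∀ D ∈ T, IsLocalEq (Cm n) D (gT D) z₀) :
    ∃ Q : Z → ℂ, HolV (Cm n) Q z₀ ∧ ∀ᶠ z in 𝓝 z₀, f z ∉ S →
      σ (f z) * tT f m c I z * ∏ D ∈ T, gT D z ^ K D = Q z := by
  classical
  have hfc : ∀ x, ContinuousAt f x := fun x => (hf x).continuousAt
  have hfcont : Continuous f := continuous_iff_continuousAt.2 hfc
  obtain ⟨TY, gY, aY, hTY, hgY, haY, hevY⟩ := hσ (f z₀)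
  set ψ := chartAt (Cm p) (f z₀) with hψ
  have hy₀s : f z₀ ∈ ψ.source := mem_chart_source (Cm p) (f z₀)
  set PY : Y → ℂ := fun y => ∏ G ∈ TY, gY G y ^ k G with hPY
  set PX : Z → ℂ := fun z => ∏ D ∈ T, gT D z ^ K D with hPX
  set h₀ : Z → ℂ := fun z => σ (f z) * tT f m c I z * PX z with hh₀
  set t₀ : Z → ℂ := fun z => tq m ((dV (Cm n) (fun z => (ψ : Y → Cm p) (f z)) z).comp
    (Ring.inverse (dV (Cm n) c z))) I with ht₀
  have hgYe : ∀ᶠ z in 𝓝 z₀, ∀ G ∈ TY, IsLocalEq (Cm p) G (gY G) (f z) := by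
    rw [Filter.eventually_all_finset]
    intro G hG
    exact (hfc z₀).eventually (hgY G hG).eventually
  have hgTe : ∀ᶠ z in 𝓝 z₀, ∀ D ∈ T, IsLocalEq (Cm n) D (gT D) z := by
    rw [Filter.eventually_all_finset]
    intro D hD
    exact (hgT D hD).eventually
  set W : Z → Prop := fun z => (∀ G ∈ TY, IsLocalEq (Cm p) G (gY G) (f z)) ∧
    HolV (Cm n) c z ∧ IsUnit (dV (Cm n) c z) ∧ f z ∈ ψ.source ∧ HolV (Cm p) aY (f z) ∧
    (PY (f z) ≠ 0 → σ (f z) * PY (f z) = aY (f z) * jac (Cm p) ψ (f z) ^ m) ∧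
    (∀ D ∈ T, IsLocalEq (Cm n) D (gT D) z) with hW
  have hWev : ∀ᶠ z in 𝓝 z₀, W z := by
    filter_upwards [hgYe, unit_nhds hc hcu,
      (hfc z₀).eventually (ψ.open_source.mem_nhds hy₀s),
      (hfc z₀).eventually (HolV.eventually (E := Cm p) haY),
      (hfc z₀).eventually hevY, hgTe] with z h1 h2 h4 h5 h6 h7
    exact ⟨h1, h2.1, h2.2.1, h4, h5, h6, h7⟩
  have hWW : ∀ᶠ z in 𝓝 z₀, ∀ᶠ z' in 𝓝 z, W z' := eventually_eventually_nhds.2 hWev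
  -- the divisor
  set Den : Z → ℂ := fun z => ∏ G ∈ TY.filter (fun G => k G ≠ 0), gY G (f z) with hDend
  have hDen : ∀ z, W z → HolV (Cm n) Den z := fun z hz =>
    HolV.prod fun G hG => HolV.comp (E' := Cm p) (hz.1 G (Finset.mem_filter.1 hG).1).holAt (hf z)
  have hDen0 : ∀ z, W z → (Den z = 0 ↔ f z ∈ S) := by
    intro z hz
    rw [hDend, Finset.prod_eq_zero_iff, hkS]
    constructor
    · rintro ⟨G, hG, h0⟩
      obtain ⟨h1, h2⟩ := Finset.mem_filter.1 hG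
      exact ⟨G, h2, (hz.1 G h1).mem_iff.2 h0⟩
    · rintro ⟨G, hG, h0⟩
      exact ⟨G, Finset.mem_filter.2 ⟨hTY G hG, hG⟩, (hz.1 G (hTY G hG)).mem_iff.1 h0⟩
  have hDne : ∀ z, (∀ᶠ z' in 𝓝 z, W z') → ¬ ∀ᶠ z' in 𝓝 z, Den z' = 0 := by
    intro z hz hcon
    have h1 : ∃ᶠ z' in 𝓝 z, f z' ∉ S := mem_closure_iff_frequently.1 (hd z)
    obtain ⟨z', h2, h3, h4⟩ := (h1.and_eventually (hz.and hcon)).exists
    exact h2 ((hDen0 z' h3).1 h4)
  have hPY0 : ∀ z, W z → f z ∉ S → PY (f z) ≠ 0 := by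
    intro z hz hzS
    refine Finset.prod_ne_zero_iff.2 fun G hG => ?_
    by_cases hk0 : k G = 0
    · simp [hk0]
    · refine pow_ne_zero _ fun h0 => hzS ((hkS _).2 ⟨G, hk0, (hz.1 G hG).mem_iff.2 h0⟩)
  have hPYh : ∀ z, W z → HolV (Cm n) (fun z => PY (f z)) z := fun z hz =>
    HolV.prod fun G hG => (HolV.comp (E' := Cm p) (hz.1 G hG).holAt (hf z)).pow (k G)
  have hPXh : ∀ z, W z → HolV (Cm n) PX z := fun z hz =>
    HolV.prod fun D hD => HolV.pow (hz.2.2.2.2.2.2 D hD).holAt (K D)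
  have hval : ∀ z, W z → f z ∉ S → h₀ z * PY (f z) = aY (f z) * t₀ z * PX z := by
    intro z hz hzS
    have h7 := hz.2.2.2.2.2.1 (hPY0 z hz hzS)
    have h8 := jac_tq (hf z) hz.2.2.2.1 m (Ring.inverse (dV (Cm n) c z)) I
    simp only [hh₀, ht₀, tT]
    rw [← h8]
    linear_combination
      (tq m ((dM (Cm n) (Cm p) f z).comp (Ring.inverse (dV (Cm n) c z))) I) * PX z * h7
  have ht₀h : ∀ z, W z → HolV (Cm n) t₀ z := by
    intro z hz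
    exact holV_tq m (holV_quot (HolV.comp (h := (ψ : Y → Cm p)) (HolV.chart hz.2.2.2.1) (hf z))
      hz.2.1 hz.2.2.1) I
  have hhol : ∀ z, (∀ᶠ z' in 𝓝 z, W z') → f z ∉ S → HolV (Cm n) h₀ z := by
    intro z hz hzS
    have hz0 := hz.self_of_nhds
    have h1 : HolV (Cm n) (fun z => aY (f z) * t₀ z * PX z / PY (f z)) z :=
      HolV.div (((HolV.comp (E' := Cm p) hz0.2.2.2.2.1 (hf z)).mul (ht₀h z hz0)).mul
        (hPXh z hz0)) (hPYh z hz0) (hPY0 z hz0 hzS)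
    refine h1.congr ?_
    filter_upwards [hz, (hS.isOpen_compl.preimage hfcont).mem_nhds hzS] with z' h2 h5
    have h6 := hPY0 z' h2 h5
    rw [eq_div_iff h6]
    exact hval z' h2 h5
  obtain ⟨Q, hQ, hQe⟩ := extendM_off (h := h₀) (hDen z₀ hWev.self_of_nhds) (hDne z₀ hWev) (by
    filter_upwards [hWW] with z hz hz0
    exact hhol z hz fun hzS => hz0 ((hDen0 z hz.self_of_nhds).2 hzS)) (by
    filter_upwards [hWW] with z₁ hz₁ hz₁0
    rw [mem_closure_iff_nhds]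
    intro t₁ ht₁
    have hz₁S : f z₁ ∈ S := (hDen0 z₁ hz₁.self_of_nhds).1 hz₁0
    obtain ⟨z, ⟨hzt, hz⟩, hzS, hznc⟩ := mem_closure_iff_nhds.1 (hΓ z₁ hz₁S)
      (interior t₁ ∩ {z | ∀ᶠ z' in 𝓝 z, W z'})
      (inter_mem (interior_mem_nhds.2 ht₁) (eventually_eventually_nhds.2 hz₁))
    have hz : ∀ᶠ z' in 𝓝 z, W z' := hz
    have ht : t₁ ∈ 𝓝 z := mem_interior_iff_mem_nhds.1 hzt
    set t : Set Z := t₁ ∩ {z' | IsSNCAt (Cm p) Γ (f z')} with htd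
    have ht : t ∈ 𝓝 z := inter_mem ht ((hfc z).eventually hznc)
    have hz0 : Den z = 0 := (hDen0 z hz.self_of_nhds).2 hzS
    obtain ⟨y, ⟨hyt, hyW⟩, hDy, e, he, he0, hde, hDe, hgen'⟩ := genM' hgen (hDen z hz.self_of_nhds)
      (hDne z hz) hz0 (ι := {G // G ∈ TY.filter (fun G => k G ≠ 0)} ⊕ {D // D ∈ T})
      (b := Sum.elim (fun G w => gY G (f w)) (fun D w => gT D w)) (by
        rintro (⟨G, hG⟩ | ⟨D, hD⟩)
        · have h1 : HolV (Cm n) (fun w => gY G (f w)) z := HolV.comp (E' := Cm p)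
            (hz.self_of_nhds.1 G (Finset.mem_filter.1 hG).1).holAt (hf z)
          exact h1
        · exact (hz.self_of_nhds.2.2.2.2.2.2 D hD).holAt)
      (U := t ∩ {y | ∀ᶠ z' in 𝓝 y, W z'}) (inter_mem ht (eventually_eventually_nhds.2 hz))
    refine ⟨y, hyt.1, hDy, ?_⟩
    have hyW0 : W y := Filter.Eventually.self_of_nhds hyW
    have hyS : f y ∈ S := (hDen0 y hyW0).1 hDy
    obtain ⟨C, hC⟩ := bd_g hf hΓ1 hΔ' hmor hm hk hK hyW0.2.2.2.1 hyW0.2.1 hyW0.2.2.1 I hT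
      hyW0.2.2.2.2.2.2 hTY hyW0.1 he he0 hde (fun D hD => hgen' (Sum.inr ⟨D, hD⟩)) (by
        intro G hG hkG
        rcases hgen' (Sum.inl ⟨G, Finset.mem_filter.2 ⟨hG, hkG⟩⟩) with h1 | h1
        · exfalso
          have h2 : ∃ᶠ z' in 𝓝 y, f z' ∉ S := mem_closure_iff_frequently.1 (hd y)
          obtain ⟨z', h3, h4, h5⟩ := (h2.and_eventually (hyW.and h1)).exists
          exact h3 ((hkS _).2 ⟨G, hkG, (h4.1 G hG).mem_iff.2 h5⟩)
        · exact h1) ((hkS _).1 hyS) hyt.2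
    have haYc : ContinuousAt (fun w => aY (f w)) y :=
      (HolV.comp (E' := Cm p) hyW0.2.2.2.2.1 (hf y)).continuousAt
    refine ⟨(‖aY (f y)‖ + 1) * C, ?_⟩
    filter_upwards [hC, hyW, hDe, haYc.norm.eventually_lt_const (lt_add_one ‖aY (f y)‖)]
      with w h1 h2 h3 h4 hw0
    have hwS : f w ∉ S := fun h => hw0 ((hDen0 w h2).2 h)
    have h5 := h1 fun h => hw0 (h3.2 h)
    have h6 := hPY0 w h2 hwS
    have h7 := hval w h2 hwS
    have h8 : 0 ≤ C * ‖PY (f w)‖ := le_trans (by positivity) h5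
    have h11 : ‖h₀ w‖ * ‖PY (f w)‖ ≤ ((‖aY (f y)‖ + 1) * C) * ‖PY (f w)‖ := by
      calc ‖h₀ w‖ * ‖PY (f w)‖ = ‖aY (f w)‖ * (‖t₀ w‖ * ‖PX w‖) := by
            rw [← norm_mul, h7, norm_mul, norm_mul, mul_assoc]
        _ ≤ ‖aY (f w)‖ * (C * ‖PY (f w)‖) := mul_le_mul_of_nonneg_left h5 (norm_nonneg _)
        _ ≤ (‖aY (f y)‖ + 1) * (C * ‖PY (f w)‖) := mul_le_mul_of_nonneg_right h4.le h8
        _ = ((‖aY (f y)‖ + 1) * C) * ‖PY (f w)‖ := by ring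
    exact le_of_mul_le_mul_right h11 (norm_pos_iff.2 h6))
  refine ⟨Q, hQ, ?_⟩
  filter_upwards [hQe, hWev] with z h1 h2 hzS
  exact h1 fun h => hzS ((hDen0 z h2).1 h)

end Vale.Agent.P281.H713.CO
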