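import Vale.Agent.P281.H713.CO.Loc

/-! P281, theorem CO: local extension of pull-backs by morphisms of orbifolds. -/

open scoped Manifold ContDiff Topology
open Set Filter Metric Vale.Agent.P281 Vale.Agent.P272.K
open Vale.Agent.P281.MF Vale.Agent.P281.ISO Vale.Agent.P281.ELL Vale.Agent.P281.H713

set_option linter.all false

noncomputable section

namespace Vale.Agent.P281.H713.CO

open Vale.Agent.P281.H713.TZ Vale.Agent.P281.H713.SA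

variable {n p : ℕ} {Z Y : Type} [TopologicalSpace Z] [ChartedSpace (Cm n) Z]
  [IsManifold 𝓘(ℂ, Cm n) ω Z] [TopologicalSpace Y] [ChartedSpace (Cm p) Y]
  [IsManifold 𝓘(ℂ, Cm p) ω Y]

/-- `Γ` has simple normal crossings at `y` -/
def IsSNCAt (E' : Type) [NormedAddCommGroup E'] [NormedSpace ℂ E'] {Y : Type} [TopologicalSpace Y]
    [ChartedSpace E' Y] (Γ : Set Y → ℝ) (y : Y) : Prop :=
  ∀ g : Set Y → Y → ℂ, (∀ G, Γ G ≠ 0 → y ∈ G → J.IsLocalEq E' G (g G) y) →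
    Function.Surjective fun (ξ : E') (G : {G // Γ G ≠ 0 ∧ y ∈ G}) => J.dif E' (g G) y ξ

/-- the pull-backs are bounded at the generic points -/
theorem bd_g {f : Z → Y} (hf : ∀ z, HolM (Cm n) (Cm p) f z) {Γ : Set Y → ℝ}
    (hΓ1 : ∀ G, Γ G ≤ 1) {Δ' : Set Z → ℝ} (hΔ' : J.IsSNC (Cm n) Δ')
    (hmor : IsOrbMor (Cm n) (Cm p) f Δ' Γ) {m : ℕ} (hm : 0 < m) {k : Set Y → ℕ}
    (hk : ∀ G, (k G : ℝ) = m * Γ G) {K : Set Z → ℕ} (hK : ∀ D, (K D : ℝ) = m * Δ' D)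
    {y : Z} {y₀ : Y} (hy : f y ∈ (chartAt (Cm p) y₀).source)
    {c : Z → Cm n} (hc : HolV (Cm n) c y) (hcu : IsUnit (dV (Cm n) c y))
    (I : Fin (m * p) → Fin n) {T : Finset (Set Z)} {gT : Set Z → Z → ℂ}
    (hT : ∀ D, K D ≠ 0 → D ∈ T) (hgT : ∀ D ∈ T, IsLocalEq (Cm n) D (gT D) y)
    {TY : Finset (Set Y)} {gY : Set Y → Y → ℂ} (hTY : ∀ G, k G ≠ 0 → G ∈ TY)
    (hgY : ∀ G ∈ TY, IsLocalEq (Cm p) G (gY G) (f y))
    {e : Z → ℂ} (he : HolV (Cm n) e y) (he0 : e y = 0) (hde : dif (Cm n) e y ≠ 0)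
    (hgenT : ∀ D ∈ T, (∀ᶠ w in 𝓝 y, gT D w = 0) ∨ ∃ (k : ℕ) (u : Z → ℂ), HolV (Cm n) u y ∧
      u y ≠ 0 ∧ ∀ᶠ w in 𝓝 y, gT D w = e w ^ k * u w)
    (hgenY : ∀ G ∈ TY, k G ≠ 0 → ∃ (k : ℕ) (u : Z → ℂ), HolV (Cm n) u y ∧
      u y ≠ 0 ∧ ∀ᶠ w in 𝓝 y, gY G (f w) = e w ^ k * u w)
    (hex : ∃ G, k G ≠ 0 ∧ f y ∈ G) (hΓ : IsSNCAt (Cm p) Γ (f y)) :
    ∃ C : ℝ, ∀ᶠ w in 𝓝 y, e w ≠ 0 →
      ‖tq m ((dV (Cm n) (fun z => (chartAt (Cm p) y₀ : Y → Cm p) (f z)) w).comp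
        (Ring.inverse (dV (Cm n) c w))) I‖ * ‖∏ D ∈ T, gT D w ^ K D‖ ≤
        C * ‖∏ G ∈ TY, gY G (f w) ^ k G‖ := by
  classical
  have hm0 : (m : ℝ) ≠ 0 := by exact_mod_cast hm.ne'
  have hkΓ : ∀ G, k G ≠ 0 ↔ Γ G ≠ 0 := by
    intro G
    have h1 := hk G
    constructor
    · intro h2 h3
      rw [h3, mul_zero] at h1
      exact h2 (by exact_mod_cast h1)
    · intro h2 h3
      rw [h3, Nat.cast_zero] at h1
      exact mul_ne_zero hm0 h2 h1.symm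
  -- the orders
  have hch : ∀ G, ∃ (κ : ℕ) (u : Z → ℂ), k G ≠ 0 → HolV (Cm n) u y ∧ u y ≠ 0 ∧
      ∀ᶠ w in 𝓝 y, gY G (f w) = e w ^ κ * u w := by
    intro G
    by_cases hG : k G ≠ 0
    · obtain ⟨κ, u, h1⟩ := hgenY G (hTY G hG) hG
      exact ⟨κ, u, fun _ => h1⟩
    · exact ⟨0, 0, fun h => absurd h hG⟩
  choose κ u hκu using hch
  have hκ0 : ∀ G, k G ≠ 0 → f y ∈ G → 0 < κ G := by
    intro G hG hyG
    obtain ⟨h1, h2, h3⟩ := hκu G hG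
    rcases Nat.eq_zero_or_pos (κ G) with h0 | h0
    · exfalso
      have h4 := h3.self_of_nhds
      rw [(hgY G (hTY G hG)).mem_iff.1 hyG, h0, pow_zero, one_mul] at h4
      exact h2 h4.symm
    · exact h0
  have hκn : ∀ G, k G ≠ 0 → f y ∉ G → κ G = 0 := by
    intro G hG hyG
    obtain ⟨h1, h2, h3⟩ := hκu G hG
    by_contra h0
    have h4 := h3.self_of_nhds
    rw [he0, zero_pow h0, zero_mul] at h4
    exact hyG ((hgY G (hTY G hG)).mem_iff.2 h4)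
  -- the components through `f y`
  set TA : Finset (Set Y) := TY.filter fun G => Γ G ≠ 0 ∧ f y ∈ G with hTA
  have hTAm : ∀ G, G ∈ TA ↔ (Γ G ≠ 0 ∧ f y ∈ G) := by
    intro G
    rw [hTA, Finset.mem_filter]
    exact ⟨fun h => h.2, fun h => ⟨hTY G ((hkΓ G).2 h.1), h⟩⟩
  haveI : Fintype {G // Γ G ≠ 0 ∧ f y ∈ G} := Fintype.ofFinset TA fun G => hTAm G
  obtain ⟨G₁, hG₁, hyG₁⟩ := hex
  set a₁ : {G // Γ G ≠ 0 ∧ f y ∈ G} := ⟨G₁, (hkΓ G₁).1 hG₁, hyG₁⟩ with ha₁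
  have hsur := hΓ gY fun G hG hyG => hgY G (hTY G ((hkΓ G).2 hG))
  obtain ⟨C, hC0, hC⟩ := tq_bound_s hf hy hc hcu a₁ he
    (w := fun a : {G // Γ G ≠ 0 ∧ f y ∈ G} => u a) (fun a => (hκu a ((hkΓ _).2 a.2.1)).1)
    (hκu a₁ ((hkΓ _).2 a₁.2.1)).2.1 (g := fun a => gY a)
    (fun a => (hgY a (hTY a ((hkΓ _).2 a.2.1))).holAt) hsur (κ := fun a => κ a)
    (fun a => hκ0 a ((hkΓ _).2 a.2.1) a.2.2) (fun a => (hκu a ((hkΓ _).2 a.2.1)).2.2) m I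
  obtain ⟨N, C', hN, hC'0, hC'⟩ := pole_at hΔ' hK hT hm hgT he he0 hgenT
  -- the exponents
  have hsum : ∑ a : {G // Γ G ≠ 0 ∧ f y ∈ G}, κ a * k a = ∑ G ∈ TY, κ G * k G := by
    rw [← Finset.sum_subtype TA hTAm fun G => κ G * k G]
    refine Finset.sum_subset (Finset.filter_subset _ _) fun G hG hGn => ?_
    by_cases h0 : k G = 0
    · rw [h0, mul_zero]
    · have h1 : f y ∉ G := fun h1 => hGn ((hTAm G).2 ⟨(hkΓ G).1 h0, h1⟩)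
      rw [hκn G h0 h1, zero_mul]
  have hΓ01 : ∀ G, 0 ≤ 1 - Γ G := fun G => by
    have := hΓ1 G
    linarith
  have h1 := (hκu G₁ hG₁)
  have hmor₁ := hmor y G₁ (gY G₁) e (u G₁) (κ G₁) ((hkΓ G₁).1 hG₁) (hgY G₁ (hTY G₁ hG₁)) he he0 hde
    h1.1 h1.2.1 (hκ0 G₁ hG₁ hyG₁) h1.2.2
  have hmor₂ : (κ G₁ : ℝ) * (1 - Γ G₁) ≤
      ∑ a : {G // Γ G ≠ 0 ∧ f y ∈ G}, (κ a : ℝ) * (1 - Γ a) :=
    Finset.single_le_sum (f := fun a : {G // Γ G ≠ 0 ∧ f y ∈ G} => (κ a : ℝ) * (1 - Γ a))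
      (fun a _ => mul_nonneg (Nat.cast_nonneg _) (hΓ01 _)) (Finset.mem_univ a₁)
  have hpos : 1 ≤ ∑ a : {G // Γ G ≠ 0 ∧ f y ∈ G}, κ a :=
    le_trans (hκ0 G₁ hG₁ hyG₁) (Finset.single_le_sum
      (f := fun a : {G // Γ G ≠ 0 ∧ f y ∈ G} => κ a) (fun a _ => Nat.zero_le _)
      (Finset.mem_univ a₁))
  have hexp : ∑ G ∈ TY, κ G * k G ≤ m * (∑ a : {G // Γ G ≠ 0 ∧ f y ∈ G}, κ a - 1) + N := by
    rw [← hsum]
    have h2 : ((∑ a : {G // Γ G ≠ 0 ∧ f y ∈ G}, κ a * k a : ℕ) : ℝ) ≤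
        ((m * (∑ a : {G // Γ G ≠ 0 ∧ f y ∈ G}, κ a - 1) + N : ℕ) : ℝ) := by
      push_cast [Nat.cast_sub hpos]
      rw [hN]
      have h3 : ∑ a : {G // Γ G ≠ 0 ∧ f y ∈ G}, (κ a : ℝ) * (k a : ℝ) =
          m * ∑ a : {G // Γ G ≠ 0 ∧ f y ∈ G}, (κ a : ℝ) -
          m * ∑ a : {G // Γ G ≠ 0 ∧ f y ∈ G}, (κ a : ℝ) * (1 - Γ a) := by
        rw [Finset.mul_sum, Finset.mul_sum, ← Finset.sum_sub_distrib]
        refine Finset.sum_congr rfl fun a _ => ?_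
        rw [hk]
        ring
      rw [h3]
      have h4 := mul_le_mul_of_nonneg_left (hmor₁.trans hmor₂) (Nat.cast_nonneg (α := ℝ) m)
      nlinarith [h4]
    exact_mod_cast h2
  -- the value of the equations of the poles
  set P := ∑ G ∈ TY, κ G * k G with hP
  set U : Z → ℂ := fun w => ∏ G ∈ TY, u G w ^ k G with hU
  have hU0 : U y ≠ 0 := by
    refine Finset.prod_ne_zero_iff.2 fun G hG => ?_
    by_cases h0 : k G = 0
    · simp [h0]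
    · exact pow_ne_zero _ (hκu G h0).2.1
  have hUc : ContinuousAt U y := by
    refine tendsto_finsetProd _ fun G hG => ?_
    by_cases h0 : k G = 0
    · simp only [h0, pow_zero]
      exact tendsto_const_nhds
    · exact ((hκu G h0).1.continuousAt.pow _)
  have hPY : ∀ᶠ w in 𝓝 y, ∏ G ∈ TY, gY G (f w) ^ k G = e w ^ P * U w := by
    have h2 : ∀ᶠ w in 𝓝 y, ∀ G ∈ TY, k G ≠ 0 → gY G (f w) = e w ^ κ G * u G w := by
      rw [Filter.eventually_all_finset]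
      intro G hG
      by_cases h0 : k G = 0
      · exact Eventually.of_forall fun w h => absurd h0 h
      · exact (hκu G h0).2.2.mono fun w hw _ => hw
    filter_upwards [h2] with w hw
    rw [hU, hP, ← Finset.prod_pow_eq_pow_sum, ← Finset.prod_mul_distrib]
    refine Finset.prod_congr rfl fun G hG => ?_
    by_cases h0 : k G = 0
    · simp [h0]
    · rw [hw G hG h0, mul_pow, ← pow_mul]
  have he1 : ∀ᶠ w in 𝓝 y, ‖e w‖ < 1 := by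
    have h2 : ‖e y‖ < 1 := by rw [he0, norm_zero]; exact one_pos
    exact he.continuousAt.norm.eventually_lt_const h2
  have hUn : ∀ᶠ w in 𝓝 y, ‖U y‖ / 2 < ‖U w‖ :=
    hUc.norm.eventually_const_lt (half_lt_self (norm_pos_iff.2 hU0))
  refine ⟨C * C' / (‖U y‖ / 2), ?_⟩
  filter_upwards [hC, hC', hPY, he1, hUn] with w h2 h3 h4 h5 h6 h7
  have hU2 : 0 < ‖U y‖ / 2 := by
    have := norm_pos_iff.2 hU0
    positivity
  have h8 : ‖e w‖ ^ (m * (∑ a : {G // Γ G ≠ 0 ∧ f y ∈ G}, κ a - 1)) * ‖e w‖ ^ N ≤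
      ‖e w‖ ^ P := by
    rw [← pow_add]
    exact pow_le_pow_of_le_one (norm_nonneg _) h5.le hexp
  rw [h4, norm_mul, norm_pow]
  calc ‖tq m ((dV (Cm n) (fun z => (chartAt (Cm p) y₀ : Y → Cm p) (f z)) w).comp
        (Ring.inverse (dV (Cm n) c w))) I‖ * ‖∏ D ∈ T, gT D w ^ K D‖
      ≤ (C * ‖e w‖ ^ (m * (∑ a : {G // Γ G ≠ 0 ∧ f y ∈ G}, κ a - 1))) * (C' * ‖e w‖ ^ N) :=
        mul_le_mul (h2 h7) h3 (norm_nonneg _) (by positivity)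
    _ = C * C' * (‖e w‖ ^ (m * (∑ a : {G // Γ G ≠ 0 ∧ f y ∈ G}, κ a - 1)) * ‖e w‖ ^ N) := by
        ring
    _ ≤ C * C' * ‖e w‖ ^ P := mul_le_mul_of_nonneg_left h8 (by positivity)
    _ = C * C' / (‖U y‖ / 2) * (‖e w‖ ^ P * (‖U y‖ / 2)) := by
        field_simp
    _ ≤ C * C' / (‖U y‖ / 2) * (‖e w‖ ^ P * ‖U w‖) := by
        refine mul_le_mul_of_nonneg_left ?_ (by positivity)
        exact mul_le_mul_of_nonneg_left h6.le (by positivity)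

end Vale.Agent.P281.H713.CO
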