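import Vale.Agent.P281.H713.CO.GExt
import Vale.Agent.P281.H455.TL.Comp
import Vale.Agent.P281.H949.TL.Thin
import Vale.Agent.P281.H413.TZ.Gen

/-! P281, theorem CO: `κ(Y, K_Y + Γ) ≤ κ(f | Δ)` for morphisms of orbifolds `f : (X, Δ) ⇢ (Y, Γ)`. -/

open scoped Manifold ContDiff Topology
open Set Filter Metric Vale.Agent.P281 Vale.Agent.P272.K
open Vale.Agent.P281.MF Vale.Agent.P281.ISO Vale.Agent.P281.H713

set_option linter.all false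

noncomputable section

namespace Vale.Agent.P281.H713.CO

open Vale.Agent.P281.H713.TZ Vale.Agent.P281.H713.SA Vale.Agent.P281.H713.TL
open Vale.Agent.P281.H716 Vale.Agent.P281.H716.IsSys Vale.Agent.P281.H498 Vale.Agent.P281.H787

/-- rational boundaries -/
def IsBdry (E' : Type) [NormedAddCommGroup E'] [NormedSpace ℂ E'] {Y : Type} [TopologicalSpace Y]
    [ChartedSpace E' Y] (Γ : Set Y → ℝ) : Prop :=
  {G | Γ G ≠ 0}.Finite ∧ (∀ G, Γ G ≠ 0 → J.IsPrime E' G) ∧ ∀ G, ∃ q : ℚ, Γ G = q ∧ 0 ≤ q ∧ q ≤ 1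

variable {n p : ℕ} {X Z Y : Type} [TopologicalSpace X] [T2Space X] [ConnectedSpace X]
  [ChartedSpace (Cm n) X] [IsManifold 𝓘(ℂ, Cm n) ω X]
  [TopologicalSpace Z] [ChartedSpace (Cm n) Z] [IsManifold 𝓘(ℂ, Cm n) ω Z]
  [TopologicalSpace Y] [ChartedSpace (Cm p) Y] [IsManifold 𝓘(ℂ, Cm p) ω Y]

theorem isPull_g (hgen : GenPart) {Δ : Set X → ℝ} (hsnc : J.IsSNC (Cm n) Δ) {j : Z → X}
    (hj : J.IsBigOpen (Cm n) j) {f : Z → Y} (hf : ContMDiff 𝓘(ℂ, Cm n) 𝓘(ℂ, Cm p) ω f)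
    (hsub : ∃ z, Function.Surjective (mfderiv 𝓘(ℂ, Cm n) 𝓘(ℂ, Cm p) f z))
    {Γ : Set Y → ℝ} (hΓ : IsBdry (Cm p) Γ) (hnc : ∀ z G, Γ G ≠ 0 → f z ∈ G →
      z ∈ closure {z' | (∃ G, Γ G ≠ 0 ∧ f z' ∈ G) ∧ ∀ᶠ y in 𝓝 (f z'), IsSNCAt (Cm p) Γ y})
    {Δ' : Set Z → ℝ} (hsnc' : J.IsSNC (Cm n) Δ') (hΔ : J.IsRestriction j Δ Δ')
    (hmor : IsOrbMor (Cm n) (Cm p) f Δ' Γ) {m : ℕ} (hm : 0 < m)
    {K : Set X → ℕ} (hKΔ : ∀ D, (K D : ℝ) = m * Δ D) {k : Set Y → ℕ}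
    (hk : ∀ G, (k G : ℝ) = m * Γ G) {σ : Y → ℂ}
    (hσ : J.IsSection (Cm p) (fun (D : Set Y) z g => J.IsLocalEq (Cm p) D g z) m k σ) :
    IsPullSection (n := n) (p := p) m K {G | Γ G ≠ 0} j f σ := by
  classical
  haveI : PreconnectedSpace Z := H949.TL.preconnected_big hj
  obtain ⟨hj0, hj₁, hj₂, hthinj⟩ := id hj
  have hs := JB.snc hsnc
  have hs' := JB.snc hsnc'
  have hm0 : (m : ℝ) ≠ 0 := by exact_mod_cast hm.ne'
  have hkΓ : ∀ G, k G ≠ 0 ↔ Γ G ≠ 0 := by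
    intro G
    have h1 := hk G
    constructor
    · intro h2 h3
      rw [h3, mul_zero] at h1
      exact h2 (by exact_mod_cast h1)
    · intro h2 h3
      rw [h3, Nat.cast_zero] at h1
      exact mul_ne_zero hm0 h2 h1.symm
  refine ⟨⟨k, fun G hG => (hkΓ G).1 hG, hσ⟩, fun x => ?_⟩
  have hjh : ∀ z, HolM (Cm n) (Cm n) j z := fun z => hj0 z
  have hfh : ∀ z, HolM (Cm n) (Cm p) f z := fun z => hf z
  set 𝒢 : Set (Set Y) := {G | Γ G ≠ 0} with h𝒢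
  have hΓ1 : ∀ G, Γ G ≤ 1 := by
    intro G
    obtain ⟨q, h1, h2, h3⟩ := hΓ.2.2 G
    rw [h1]
    exact_mod_cast h3
  have h𝒢fin : 𝒢.Finite := hΓ.1
  have h𝒢pr : ∀ G ∈ 𝒢, IsPrimeDivisor (Cm p) G := fun G hG => hΓ.2.1 G hG
  set S : Set Y := ⋃₀ 𝒢 with hS
  have hSc : IsClosed S := by
    rw [hS, sUnion_eq_biUnion]
    exact h𝒢fin.isClosed_biUnion fun G hG => (h𝒢pr G hG).1
  have hkS : ∀ y, y ∈ S ↔ ∃ G, k G ≠ 0 ∧ y ∈ G := by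
    intro y
    constructor
    · rintro ⟨G, hG, hy⟩
      exact ⟨G, (hkΓ G).2 hG, hy⟩
    · rintro ⟨G, hG, hy⟩
      exact ⟨G, (hkΓ G).1 hG, hy⟩
  have hdZ : Dense {z | f z ∉ S} := H949.TL.dense_of_sub hf hsub h𝒢fin h𝒢pr
  have hSG : ∀ y, y ∈ S ↔ ∃ G, Γ G ≠ 0 ∧ y ∈ G := fun y => Iff.rfl
  have hnc' : ∀ z, f z ∈ S →
      z ∈ closure {z' | f z' ∈ S ∧ ∀ᶠ y in 𝓝 (f z'), IsSNCAt (Cm p) Γ y} := by
    rintro z ⟨G, hG, hz⟩
    exact hnc z G hG hz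
  set Ω : Set X := {x | ∃ z, j z = x ∧ f z ∉ S} with hΩ
  have hΩj : Ω ⊆ range j := by
    rintro x ⟨z, rfl, -⟩
    exact mem_range_self z
  have hjd : Dense (range j) := H949.TL.dense_range_big hj
  have hΩd : Dense Ω := by
    have h2 : j '' {z | f z ∉ S} = Ω := by
      ext x
      constructor
      · rintro ⟨z, hz, rfl⟩
        exact ⟨z, rfl, hz⟩
      · rintro ⟨z, rfl, hz⟩
        exact ⟨z, hz, rfl⟩
    rw [← h2]
    exact DenseRange.dense_image (f := j) hjd hj₁.continuous hdZ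
  -- the boundary on `Z`
  set K' : Set Z → ℕ := fun D' => ⌊(m : ℝ) * Δ' D'⌋₊ with hK'd
  have hK'Δ : ∀ D', (K' D' : ℝ) = m * Δ' D' := by
    intro D'
    by_cases h : Δ' D' = 0
    · simp [hK'd, h]
    · obtain ⟨D, h1, h2⟩ := hΔ.2 D' h
      have h3 : (m : ℝ) * Δ' D' = (K D : ℝ) := by rw [h2, hΔ.1 D h1, hKΔ]
      show ((⌊(m : ℝ) * Δ' D'⌋₊ : ℕ) : ℝ) = _
      rw [h3, Nat.floor_natCast]
  have hKne : ∀ D, K D ≠ 0 ↔ Δ D ≠ 0 := by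
    intro D
    have h1 := hKΔ D
    constructor
    · intro h2 h3
      rw [h3, mul_zero] at h1
      exact h2 (by exact_mod_cast h1)
    · intro h2 h3
      rw [h3, Nat.cast_zero] at h1
      exact mul_ne_zero hm0 h2 h1.symm
  have hK'ne : ∀ D', K' D' ≠ 0 → Δ' D' ≠ 0 := by
    intro D' hD' h0
    apply hD'
    have := hK'Δ D'
    rw [h0, mul_zero] at this
    exact_mod_cast this
  have hKK' : ∀ D, K D ≠ 0 → K D = K' (j ⁻¹' D) := by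
    intro D hD
    have h1 : (K D : ℝ) = (K' (j ⁻¹' D) : ℝ) := by
      rw [hKΔ, hK'Δ, hΔ.1 D ((hKne D).1 hD)]
    exact_mod_cast h1
  have hK'K : ∀ D', K' D' ≠ 0 → ∃ D, K D ≠ 0 ∧ D' = j ⁻¹' D := by
    intro D' hD'
    obtain ⟨D, h1, h2⟩ := hΔ.2 D' (hK'ne D' hD')
    exact ⟨D, (hKne D).2 h1, h2⟩
  have hfin' : {D' | K' D' ≠ 0}.Finite := hs'.finite.subset fun D' hD' => hK'ne D' hD'
  -- the local equations at `x`
  set T : Finset (Set X) := hsnc.1.toFinset with hTdef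
  have hTΔ : ∀ D, D ∈ T ↔ Δ D ≠ 0 := fun D => Set.Finite.mem_toFinset _
  have hex : ∀ D ∈ T, ∃ g, J.IsLocalEq (Cm n) D g x := fun D hD =>
    (hsnc.2.1 D ((hTΔ D).1 hD)).2.1 x
  choose! g hg using hex
  have hT : ∀ D, K D ≠ 0 → D ∈ T := fun D hD => (hTΔ D).2 ((hKne D).1 hD)
  refine ⟨T, g, hT, hg, fun I => ?_⟩
  set e : Chart n X := chartAt (Cm n) x with hedef
  have he : e ∈ atlas (Cm n) X := chart_mem_atlas (Cm n) _
  have hx : x ∈ e.source := mem_chart_source (Cm n) _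
  set I' : Fin (m * p) → Fin n := fun s =>
    I (finProdFinEquiv.symm s).1 (finProdFinEquiv.symm s).2 with hI'
  have hev : ∀ᶠ y in 𝓝 x, y ∈ e.source ∧ ∀ D ∈ T, IsLocalEq (Cm n) D (g D) y := by
    refine Filter.Eventually.and (e.open_source.mem_nhds hx) ?_
    rw [Filter.eventually_all_finset]
    exact fun D hD => IsLocalEq.eventually (hg D hD)
  obtain ⟨U, hUsub, hUo, hxU⟩ := _root_.mem_nhds_iff.1 hev
  obtain ⟨Q, hQ, hQe⟩ := ext_big (h := fun y => hX j f m σ e I' y * ∏ D ∈ T, g D y ^ K D) hj₁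
    hthinj hΩj hΩd hUo (by
    rintro x₁ hx₁ ⟨z₀, rfl⟩
    obtain ⟨hx₁s, hx₁g⟩ := hUsub hx₁
    have hAt : At e (j z₀) := ⟨he, hx₁s⟩
    have hch : ∀ D', ∃ g : Z → ℂ, D' ∈ hfin'.toFinset → IsLocalEq (Cm n) D' g z₀ := by
      intro D'
      by_cases hD : D' ∈ hfin'.toFinset
      · obtain ⟨e', he'⟩ := (hs'.prime D' (hK'ne D' (hfin'.mem_toFinset.1 hD))).2.1 z₀
        exact ⟨e', fun _ => he'⟩
      · exact ⟨0, fun h => absurd h hD⟩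
    choose g' hg' using hch
    obtain ⟨Q, hQ, hQe⟩ := tens_localG hgen hfh hΓ1 hsnc' hmor hSc hdZ hnc' hm hk hkS hK'Δ hσ
      (holV_ej hjh hAt) (isUnit_ej hjh hj₂ hAt) I' (fun D' hD' => hfin'.mem_toFinset.2 hD') hg'
    obtain ⟨u, hu, hue⟩ := poles_emb hjh hKK' hK'K hT hx₁g
      (T' := hfin'.toFinset) (fun D' hD' => hfin'.mem_toFinset.1 hD') hg'
    set Q' : X → ℂ := fun x => if h : x ∈ range j then Q h.choose * u h.choose else 0 with hQ'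
    have hQj : ∀ w, Q' (j w) = Q w * u w := by
      intro w
      have h1 : j w ∈ range j := mem_range_self w
      have h2 : h1.choose = w := hj₁.injective h1.choose_spec
      simp only [hQ']
      rw [dif_pos h1, h2]
    refine ⟨Q', holV_of_comp (hjh z₀) (hj₂ z₀) (by simpa only [hQj] using hQ.mul hu), ?_⟩
    rw [← hj₁.map_nhds_eq z₀, eventually_map]
    filter_upwards [hQe, hue] with w hw hw2 hwΩ
    obtain ⟨w', hw', hfw⟩ := hwΩ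
    have h3 : w' = w := hj₁.injective hw'
    subst h3
    rw [hX_j hj₁, hQj, hw2, ← hw hfw]
    ring) hxU
  refine ⟨Q, hQ, ?_⟩
  filter_upwards [hQe] with y h1 z hzy hz hne
  subst hzy
  have hz' : f z ∉ S := by
    rintro ⟨G, hG, hGz⟩
    exact hz G hG hGz
  have h2 := h1 ⟨z, rfl, hz'⟩
  have h8 : tT f m (fun z => e (j z)) I' z = minors m j f x z I := by
    unfold tT tq minors mK
    refine Finset.prod_congr rfl fun r _ => ?_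
    congr 1
    ext a b
    simp only [Matrix.of_apply, hI', Equiv.symm_apply_apply]
    rfl
  rw [hX_j hj₁, h8] at h2
  exact h2

/-- **Theorem CO**: `κ(Y, K_Y + Γ) ≤ κ(f | Δ)` for all morphisms of orbifolds in codimension one
`f : (X, Δ) ⇢ (Y, Γ)`, if `Γ` is SNC at the images of the general points of `f⁻¹(Γ)`. -/
theorem comp_g (hgen : GenPart) {Δ : Set X → ℝ} (hsnc : J.IsSNC (Cm n) Δ)
    {j : Z → X} (hj : J.IsBigOpen (Cm n) j) {f : Z → Y}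
    (hf : ContMDiff 𝓘(ℂ, Cm n) 𝓘(ℂ, Cm p) ω f)
    (hsub : ∃ z, Function.Surjective (mfderiv 𝓘(ℂ, Cm n) 𝓘(ℂ, Cm p) f z))
    {Γ : Set Y → ℝ} (hΓ : IsBdry (Cm p) Γ) (hnc : ∀ z G, Γ G ≠ 0 → f z ∈ G →
      z ∈ closure {z' | (∃ G, Γ G ≠ 0 ∧ f z' ∈ G) ∧ ∀ᶠ y in 𝓝 (f z'), IsSNCAt (Cm p) Γ y})
    {Δ' : Set Z → ℝ} (hsnc' : J.IsSNC (Cm n) Δ') (hΔ : J.IsRestriction j Δ Δ')
    (hmor : IsOrbMor (Cm n) (Cm p) f Δ' Γ) :
    J.kod (Cm p) (fun (G : Set Y) y g => J.IsLocalEq (Cm p) G g y) Γ ≤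
      kodF (n := n) (p := p) Δ j f := by
  classical
  unfold J.kod kodF
  refine iSup₂_le fun l hl => ?_
  obtain ⟨m₂, k, σ, y₀, hm₂, hk, hσ, hky₀, hσ0, hσl⟩ := hl
  obtain ⟨M₀, hM₀, K₀, hK₀, -⟩ := exists_denominator (JB.snc hsnc)
  obtain ⟨N₀, rfl⟩ : ∃ N₀, M₀ = N₀ + 1 := ⟨M₀ - 1, by omega⟩
  have hm₂0 : (m₂ : ℝ) ≠ 0 := by exact_mod_cast hm₂.ne'
  have hkΓ : ∀ G, k G ≠ 0 → Γ G ≠ 0 := by
    intro G h2 h3
    have h1 := hk G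
    rw [h3, mul_zero] at h1
    exact h2 (by exact_mod_cast h1)
  -- the boundary of `Y`
  set TY : Finset (Set Y) := hΓ.1.toFinset with hTYdef
  have hTY : ∀ G, G ∈ TY ↔ Γ G ≠ 0 := fun G => Set.Finite.mem_toFinset _
  have hTYex : ∀ G ∈ TY, ∀ x, ∃ g, J.IsLocalEq (Cm p) G g x := fun G hG =>
    (hΓ.2.1 G ((hTY G).1 hG)).2.1
  have hsY : IsSys p (eqL p) TY := isSys_eqL hTYex
  have hkGT : ∀ G, k G ≠ 0 → G ∈ TY := fun G hG => (hTY G).2 (hkΓ G hG)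
  have hkfin : {G | k G ≠ 0}.Finite := hΓ.1.subset fun G hG => hkΓ G hG
  have hkpr : ∀ G, k G ≠ 0 → IsPrimeDivisor (Cm p) G := fun G hG => hΓ.2.1 G (hkΓ G hG)
  have hy₀ : ∀ G, k G ≠ 0 → y₀ ∉ G := by
    intro G hG hy
    obtain ⟨g, hg, hg0⟩ := hky₀ G hG
    exact hg0 (IsLocalEq.mem_iff (E := Cm p) (D := G) hg |>.1 hy)
  -- the powers
  have hσ's : ∀ b, J.IsSection (Cm p) (eqL p) ((N₀ + 1) * m₂) ((N₀ + 1) • k)
      (fun y => σ 0 y ^ N₀ * σ b y) := fun b =>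
    hsY.pow_mul hkGT (hσ 0) (hσ b) N₀ (fun G hG => hkGT G fun h0 => hG (by
      rw [Pi.smul_apply, h0, smul_zero])) fun G => by rw [Pi.smul_apply, smul_eq_mul]
  have hm' : 0 < (N₀ + 1) * m₂ := Nat.mul_pos (Nat.succ_pos _) hm₂
  have hK' : ∀ D, (((fun D => m₂ * K₀ D) D : ℕ) : ℝ) = ((N₀ + 1) * m₂ : ℕ) * Δ D := by
    intro D
    have h6 := hK₀ D
    push_cast at h6 ⊢
    rw [h6]
    ring
  have hk' : ∀ G, ((((N₀ + 1) • k) G : ℕ) : ℝ) = ((N₀ + 1) * m₂ : ℕ) * Γ G := by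
    intro G
    rw [Pi.smul_apply, smul_eq_mul]
    push_cast
    rw [hk G, mul_assoc]
  have hy₀' : ∀ G ∈ {G | Γ G ≠ 0}, y₀ ∉ G := by
    intro G hG
    refine hy₀ G fun h0 => ?_
    have h1 := hk G
    rw [h0, Nat.cast_zero] at h1
    exact mul_ne_zero hm₂0 hG h1.symm
  refine le_iSup₂_of_le l ⟨(N₀ + 1) * m₂, fun D => m₂ * K₀ D, {G | Γ G ≠ 0},
    fun b y => σ 0 y ^ N₀ * σ b y, y₀, hm', fun D => (hK' D).le, hΓ.1, fun G hG => hΓ.2.1 G hG,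
    fun b => ?_, hy₀', mul_ne_zero (pow_ne_zero _ hσ0) hσ0, ?_⟩ le_rfl
  · exact isPull_g hgen hsnc hj hf hsub hΓ hnc hsnc' hΔ hmor hm' hK' hk' (hσ's b)
  · have h3 : ∀ᶠ y in 𝓝 y₀, σ 0 y ≠ 0 := (secAt_of hkpr (hσ 0) hy₀).ev_ne hσ0
    have h4 : ∀ b : Fin l, J.dif (Cm p) (fun w => σ 0 w ^ N₀ * σ (b + 1) w /
        (σ 0 w ^ N₀ * σ 0 w)) y₀ = J.dif (Cm p) (fun w => σ (b + 1) w / σ 0 w) y₀ := by
      intro b
      refine dV_congr (E := Cm p) ?_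
      filter_upwards [h3] with w hw
      rw [mul_div_mul_left _ _ (pow_ne_zero _ hw)]
    simp only [h4]
    exact hσl

end Vale.Agent.P281.H713.CO
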