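import Vale.Agent.P281.H713.TZ.Bd

/-! P281, theorem CO: the determinant of logarithmic rows. -/

open scoped Manifold ContDiff Topology
open Set Filter Metric Vale.Agent.P281 Vale.Agent.P272.K
open Vale.Agent.P281.MF Vale.Agent.P281.ISO Vale.Agent.P281.ELL Vale.Agent.P281.H713

set_option linter.all false

noncomputable section

namespace Vale.Agent.P281.H713.CO

open Vale.Agent.P281.H713.TZ

theorem prod_extend {p : ℕ} {α : Type} [Fintype α] {σ : α → Fin p} (hσ : Function.Injective σ)
    (g : α → ℂ) : ∏ i, Function.extend σ g (fun _ => 1) i = ∏ a, g a := by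
  classical
  have h1 : ∏ i ∈ Finset.univ.map ⟨σ, hσ⟩, Function.extend σ g (fun _ => 1) i =
      ∏ i, Function.extend σ g (fun _ => 1) i := by
    refine Finset.prod_subset (Finset.subset_univ _) fun i _ hi => ?_
    refine Function.extend_apply' _ _ _ ?_
    rintro ⟨a, ha⟩
    exact hi (Finset.mem_map.2 ⟨a, Finset.mem_univ _, ha⟩)
  rw [← h1, Finset.prod_map]
  exact Finset.prod_congr rfl fun a _ => hσ.extend_apply _ _ a

theorem det_factor {p : ℕ} {α : Type} [Fintype α] [DecidableEq α] {σ : α → Fin p}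
    (hσ : Function.Injective σ) (M : Matrix (Fin p) (Fin p) ℂ) (a₁ : α) {e : ℂ} (he : e ≠ 0)
    {k : α → ℕ} (hk : ∀ a, 0 < k a) {u : α → ℂ} (hu : u a₁ ≠ 0) (d : Fin p → ℂ)
    (du : α → Fin p → ℂ)
    (hM : ∀ a b, M (σ a) b = e ^ (k a - 1) * (k a * u a * d b + e * du a b)) :
    M.det = e ^ (∑ a, k a - 1) * Matrix.det (Function.extend σ (fun a b =>
      if a = a₁ then k a₁ * u a₁ * d b + e * du a₁ b else
        du a b - (k a * u a) / (k a₁ * u a₁) * du a₁ b) (fun i b => M i b) :
        Matrix (Fin p) (Fin p) ℂ) := by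
  set N : Matrix (Fin p) (Fin p) ℂ := Function.extend σ (fun a b =>
      if a = a₁ then k a₁ * u a₁ * d b + e * du a₁ b else
        du a b - (k a * u a) / (k a₁ * u a₁) * du a₁ b) (fun i b => M i b) with hN
  set w : Fin p → ℂ := Function.extend σ (fun a => if a = a₁ then e ^ (k a₁ - 1) else e ^ k a)
    (fun _ => 1) with hw
  set c : Fin p → ℂ := Function.extend σ (fun a => if a = a₁ then 0 else
    (k a * u a) / (k a₁ * u a₁) * e ^ (k a - 1) / e ^ (k a₁ - 1)) (fun _ => 0) with hc
  have hNσ : ∀ a, N (σ a) = fun b => if a = a₁ then k a₁ * u a₁ * d b + e * du a₁ b else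
        du a b - (k a * u a) / (k a₁ * u a₁) * du a₁ b := fun a => hσ.extend_apply _ _ a
  have hwσ : ∀ a, w (σ a) = if a = a₁ then e ^ (k a₁ - 1) else e ^ k a := fun a =>
    hσ.extend_apply _ _ a
  have hcσ : ∀ a, c (σ a) = if a = a₁ then 0 else
    (k a * u a) / (k a₁ * u a₁) * e ^ (k a - 1) / e ^ (k a₁ - 1) := fun a => hσ.extend_apply _ _ a
  have hk₁ : (k a₁ : ℂ) ≠ 0 := by exact_mod_cast (hk a₁).ne'
  have hprod : ∏ i, w i = e ^ (∑ a, k a - 1) := by
    rw [hw, prod_extend hσ]
    have h1 : ∀ a, (if a = a₁ then e ^ (k a₁ - 1) else e ^ k a) =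
        e ^ (if a = a₁ then k a₁ - 1 else k a) := by
      intro a
      split_ifs <;> rfl
    simp only [h1]
    rw [Finset.prod_pow_eq_pow_sum]
    congr 1
    have h2 : ∑ a, k a = ∑ a, (if a = a₁ then k a₁ - 1 else k a) + 1 := by
      rw [← Finset.add_sum_erase _ _ (Finset.mem_univ a₁),
        ← Finset.add_sum_erase _ (fun a => if a = a₁ then k a₁ - 1 else k a) (Finset.mem_univ a₁)]
      have h3 : ∑ a ∈ Finset.univ.erase a₁, k a =
          ∑ a ∈ Finset.univ.erase a₁, (if a = a₁ then k a₁ - 1 else k a) := by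
        refine Finset.sum_congr rfl fun a ha => ?_
        rw [if_neg (Finset.ne_of_mem_erase ha)]
      rw [h3]
      simp only [if_true]
      have := hk a₁
      omega
    rw [h2, Nat.add_sub_cancel]
  have h1 : M.det = (Matrix.of fun i j => w i * N i j).det := by
    refine Matrix.det_eq_of_forall_row_eq_smul_add_const c (σ a₁) (by rw [hcσ, if_pos rfl]) ?_
    intro i j
    rw [Matrix.of_apply, Matrix.of_apply]
    by_cases hi : ∃ a, σ a = i
    · obtain ⟨a, rfl⟩ := hi
      rw [hM, hNσ, hwσ, hcσ, hNσ, hwσ]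
      by_cases ha : a = a₁
      · subst ha
        simp
      · simp only [if_neg ha, if_true]
        have h3 : e ^ k a = e ^ (k a - 1) * e := by
          rw [← pow_succ, Nat.sub_add_cancel (hk a)]
        have h4 : e ^ (k a₁ - 1) ≠ 0 := pow_ne_zero _ he
        rw [h3]
        field_simp
        ring
    · have h3 : c i = 0 := Function.extend_apply' _ _ _ hi
      have h4 : w i = 1 := Function.extend_apply' _ _ _ hi
      have h5 : N i = fun b => M i b := Function.extend_apply' _ _ _ hi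
      rw [h3, h4, h5]
      ring
  rw [h1, Matrix.det_mul_column, hprod]

/-- completion of independent functionals -/
theorem exists_compl {p : ℕ} {α : Type} [Fintype α] (Λ : α → Cm p →L[ℂ] ℂ)
    (h : Function.Surjective fun (ξ : Cm p) (a : α) => Λ a ξ) :
    ∃ σ : α → Fin p, Function.Injective σ ∧ ContinuousLinearMap.det
      (ContinuousLinearMap.pi (Function.extend σ Λ fun i => ContinuousLinearMap.proj i) :
        Cm p →L[ℂ] Cm p) ≠ 0 := by
  classical
  set s := Fintype.card α with hs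
  let ε : α ≃ Fin s := Fintype.equivFin α
  set A : Cm p →L[ℂ] Cm s := ContinuousLinearMap.pi fun b => Λ (ε.symm b) with hA
  have hAs : Function.Surjective A := by
    intro v
    obtain ⟨ξ, hξ⟩ := h fun a => v (ε a)
    refine ⟨ξ, ?_⟩
    ext b
    have h1 := congrFun hξ (ε.symm b)
    simp only [Equiv.apply_symm_apply] at h1
    exact h1
  obtain ⟨κ, hκ⟩ := exists_mnr hAs
  have hinj := mnr_not_inj A hκ
  have hσ : Function.Injective fun a => κ (ε a) := fun a b hab => ε.injective (hinj hab)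
  refine ⟨fun a => κ (ε a), hσ, ?_⟩
  set B : Cm p →L[ℂ] Cm p := ContinuousLinearMap.pi
    (Function.extend (fun a => κ (ε a)) Λ fun i => ContinuousLinearMap.proj i) with hB
  have hBσ : ∀ a ξ, B ξ (κ (ε a)) = Λ a ξ := by
    intro a ξ
    have h1 := hσ.extend_apply Λ (fun i => (ContinuousLinearMap.proj i : Cm p →L[ℂ] ℂ)) a
    show (Function.extend (fun a => κ (ε a)) Λ
      (fun i => (ContinuousLinearMap.proj i : Cm p →L[ℂ] ℂ)) (κ (ε a))) ξ = _
    rw [h1]
  have hBn : ∀ i ξ, (¬ ∃ a, κ (ε a) = i) → B ξ i = ξ i := by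
    intro i ξ hi
    have h1 := Function.extend_apply' Λ (fun i => (ContinuousLinearMap.proj i : Cm p →L[ℂ] ℂ)) i hi
    show (Function.extend (fun a => κ (ε a)) Λ
      (fun i => (ContinuousLinearMap.proj i : Cm p →L[ℂ] ℂ)) i) ξ = _
    rw [h1]
    rfl
  have hker : ∀ ξ, B ξ = 0 → ξ = 0 := by
    intro ξ hξ
    have h1 : ∀ i, (¬ ∃ a, κ (ε a) = i) → ξ i = 0 := fun i hi => by
      rw [← hBn i ξ hi, hξ]; rfl
    have h2 : ξ = ∑ b, ξ (κ b) • (Pi.single (κ b) 1 : Cm p) := by
      ext i
      rw [Finset.sum_apply]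
      by_cases hi : ∃ a, κ (ε a) = i
      · obtain ⟨a, rfl⟩ := hi
        rw [Finset.sum_eq_single (ε a)]
        · simp
        · intro b _ hb
          have h3 : κ (ε a) ≠ κ b := fun h3 => hb (hinj h3).symm
          simp [Pi.single_apply, h3]
        · intro h3
          exact absurd (Finset.mem_univ _) h3
      · rw [h1 i hi, Finset.sum_eq_zero]
        intro b _
        have h3 : i ≠ κ b := fun h3 => hi ⟨ε.symm b, by rw [Equiv.apply_symm_apply, h3]⟩
        simp [Pi.single_apply, h3]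
    have h3 : Matrix.mulVec (Matrix.of fun a b : Fin s => A (Pi.single (κ b) 1) a)
        (fun b => ξ (κ b)) = 0 := by
      ext a
      rw [Matrix.mulVec, dotProduct]
      have h4 : A ξ a = ∑ b, ξ (κ b) * A (Pi.single (κ b) 1) a := by
        conv_lhs => rw [h2]
        rw [map_sum, Finset.sum_apply]
        refine Finset.sum_congr rfl fun b _ => ?_
        rw [map_smul]
        rfl
      have h5 : A ξ a = 0 := by
        have h6 := hBσ (ε.symm a) ξ
        rw [hξ] at h6
        exact h6.symm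
      rw [h5] at h4
      simp only [Matrix.of_apply, Pi.zero_apply]
      rw [h4]
      exact Finset.sum_congr rfl fun b _ => mul_comm _ _
    have h4 := Matrix.eq_zero_of_mulVec_eq_zero (M := Matrix.of fun a b : Fin s =>
      A (Pi.single (κ b) 1) a) hκ h3
    rw [h2]
    refine Finset.sum_eq_zero fun b _ => ?_
    have h5 : ξ (κ b) = 0 := congrFun h4 b
    rw [h5, zero_smul]
  have h5 : Function.Injective (B : Cm p →ₗ[ℂ] Cm p) :=
    (injective_iff_map_eq_zero (B : Cm p →ₗ[ℂ] Cm p)).2 hker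
  intro h0
  have h6 : LinearMap.det (B : Cm p →ₗ[ℂ] Cm p) = 0 := h0
  have h7 : IsUnit (B : Cm p →ₗ[ℂ] Cm p) := by
    rw [LinearMap.isUnit_iff_ker_eq_bot]
    exact LinearMap.ker_eq_bot.2 h5
  have h8 : IsUnit (LinearMap.det (B : Cm p →ₗ[ℂ] Cm p)) := LinearMap.isUnit_det _ h7
  rw [h6] at h8
  exact not_isUnit_zero h8

end Vale.Agent.P281.H713.CO
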