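import Vale.Agent.P281.H713.CO.Bd
import Vale.Agent.P281.H713.TZ.Lift
import Vale.Agent.P281.ISO.DefsQ

/-! P281, theorem CO: local extension of pull-backs by morphisms of orbifolds. -/

open scoped Manifold ContDiff Topology
open Set Filter Metric Vale.Agent.P281 Vale.Agent.P272.K
open Vale.Agent.P281.MF Vale.Agent.P281.ISO Vale.Agent.P281.ELL Vale.Agent.P281.H713

set_option linter.all false

noncomputable section

namespace Vale.Agent.P281.H713.CO

open Vale.Agent.P281.H713.TZ Vale.Agent.P281.H713.SA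

/-- `f : (Z, Δ') → (Y, Γ)` is a morphism of orbifolds in codimension one: if `f^* G = κ {e = 0}` near
a point `z` of the smooth hypersurface `e = 0`, and `δ` is the sum of the coefficients of the
components of `Δ'` through `z`, then `1 - δ ≤ κ (1 - Γ(G))`. -/
def IsOrbMor (E E' : Type) [NormedAddCommGroup E] [NormedSpace ℂ E] [NormedAddCommGroup E']
    [NormedSpace ℂ E'] {Z Y : Type} [TopologicalSpace Z] [ChartedSpace E Z] [TopologicalSpace Y]
    [ChartedSpace E' Y] (f : Z → Y) (Δ' : Set Z → ℝ) (Γ : Set Y → ℝ) : Prop :=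
  ∀ (z : Z) (G : Set Y) (g : Y → ℂ) (e w : Z → ℂ) (κ : ℕ), Γ G ≠ 0 → J.IsLocalEq E' G g (f z) →
    J.HolAt E e z → e z = 0 → J.dif E e z ≠ 0 → J.HolAt E w z → w z ≠ 0 → 0 < κ →
    (∀ᶠ x in 𝓝 z, g (f x) = e x ^ κ * w x) →
    1 - ∑ᶠ (D : Set Z) (_ : z ∈ D), Δ' D ≤ κ * (1 - Γ G)

variable {n p : ℕ} {Z Y : Type} [TopologicalSpace Z] [ChartedSpace (Cm n) Z]
  [IsManifold 𝓘(ℂ, Cm n) ω Z] [TopologicalSpace Y] [ChartedSpace (Cm p) Y]
  [IsManifold 𝓘(ℂ, Cm p) ω Y]

/-- generic points of a hypersurface, on manifolds -/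
theorem genM' (hgen : GenPart) {z : Z} {Den : Z → ℂ} (hD : HolV (Cm n) Den z)
    (hne : ¬ ∀ᶠ w in 𝓝 z, Den w = 0) (h0 : Den z = 0) {ι : Type} [Finite ι] {b : ι → Z → ℂ}
    (hb : ∀ i, HolV (Cm n) (b i) z) {U : Set Z} (hU : U ∈ 𝓝 z) :
    ∃ y ∈ U, Den y = 0 ∧ ∃ e : Z → ℂ, HolV (Cm n) e y ∧ e y = 0 ∧
      dif (Cm n) e y ≠ 0 ∧ (∀ᶠ w in 𝓝 y, Den w = 0 ↔ e w = 0) ∧
      ∀ i, (∀ᶠ w in 𝓝 y, b i w = 0) ∨ ∃ (k : ℕ) (u : Z → ℂ), HolV (Cm n) u y ∧ u y ≠ 0 ∧
        ∀ᶠ w in 𝓝 y, b i w = e w ^ k * u w := by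
  classical
  set φ := chartAt (Cm n) z with hφ
  have hz : z ∈ φ.source := mem_chart_source (Cm n) z
  set c₀ : Cm n := φ z with hc₀
  have hsc : φ.symm c₀ = z := φ.left_inv hz
  have hφst : Tendsto φ.symm (𝓝 c₀) (𝓝 z) := by
    have := (φ.continuousAt_symm (φ.map_source hz)).tendsto
    rwa [hsc] at this
  obtain ⟨c, hcU, hc0, e, he, he0, hde, hev, hgen'⟩ := hgen (Cm n) (Den ∘ φ.symm) c₀
    (hD.rep hz).analyticAt (by
      intro h
      apply hne
      filter_upwards [(φ.continuousAt hz).eventually h, φ.open_source.mem_nhds hz] with w h1 h2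
      have h3 : Den (φ.symm (φ w)) = 0 := h1
      rwa [φ.left_inv h2] at h3) (by
      show Den (φ.symm c₀) = 0
      rw [hsc]; exact h0) ι ‹_› (fun i => b i ∘ φ.symm) (fun i => ((hb i).rep hz).analyticAt)
    (φ.target ∩ φ.symm ⁻¹' U) (inter_mem (φ.open_target.mem_nhds (φ.map_source hz)) (hφst hU))
  have hct : c ∈ φ.target := hcU.1
  set y : Z := φ.symm c with hy
  have hys : y ∈ φ.source := φ.map_target hct
  have hφy : φ y = c := φ.right_inv hct
  have htend : Tendsto φ (𝓝 y) (𝓝 c) := by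
    have := (φ.continuousAt hys).tendsto
    rwa [hφy] at this
  have hpull : ∀ {q : Cm n → Prop}, (∀ᶠ c' in 𝓝 c, q c') → ∀ᶠ w in 𝓝 y, q (φ w) ∧
      w ∈ φ.source := fun h => (htend.eventually h).and (φ.open_source.mem_nhds hys)
  refine ⟨y, hcU.2, hc0, fun w => e (φ w), ?_, ?_, ?_, ?_, ?_⟩
  · refine holV_symm (z₀ := z) hys (h := e) (by rw [← hφ, hφy]; exact he) ?_
    exact Eventually.of_forall fun w => rfl
  · show e (φ y) = 0
    rw [hφy]; exact he0
  · intro h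
    apply hde
    have h1 : dV (Cm n) (fun w => e (φ w)) y = (fderiv ℂ e (φ y)).comp
        (dV (Cm n) (φ : Z → Cm n) y) :=
      dV_comp_contDiff (G := e) (by rw [hφy]; exact he.contDiffAt) (HolV.chart hys)
    have h2 : dV (Cm n) (fun w => e (φ w)) y = 0 := by
      rw [← dif_eq_dV]; exact h
    have h3 := Ring.mul_inverse_cancel _ (isUnit_dV_chart (E := Cm n) hys)
    refine ContinuousLinearMap.ext fun v => ?_
    have h4 : dV (Cm n) (φ : Z → Cm n) y (Ring.inverse (dV (Cm n) (φ : Z → Cm n) y) v) = v :=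
      congrArg (fun T : Cm n →L[ℂ] Cm n => T v) h3
    have h5 := congrArg (fun T : Cm n →L[ℂ] ℂ => T (Ring.inverse (dV (Cm n) (φ : Z → Cm n) y) v))
      (h1.symm.trans h2)
    simp only [ContinuousLinearMap.comp_apply] at h5
    rw [h4, hφy] at h5
    exact h5
  · filter_upwards [hpull hev] with w hw
    have h1 := hw.1
    simp only [Function.comp_apply, φ.left_inv hw.2] at h1
    exact h1
  · intro i
    rcases hgen' i with h | ⟨k, u, hu, hu0, hue⟩
    · left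
      filter_upwards [hpull h] with w hw
      have h1 := hw.1
      simp only [Function.comp_apply, φ.left_inv hw.2] at h1
      exact h1
    · right
      refine ⟨k, fun w => u (φ w), holV_symm (z₀ := z) hys (h := u)
        (by rw [← hφ, hφy]; exact hu) (Eventually.of_forall fun w => rfl), ?_, ?_⟩
      · show u (φ y) ≠ 0
        rw [hφy]; exact hu0
      · filter_upwards [hpull hue] with w hw
        have h1 := hw.1
        simp only [Function.comp_apply, φ.left_inv hw.2] at h1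
        exact h1

/-- the local equations of `Δ'` at the generic points of the hypersurface `e = 0` -/
theorem pole_at {y : Z} {Δ' : Set Z → ℝ} (hΔ' : J.IsSNC (Cm n) Δ') {m : ℕ} {K : Set Z → ℕ}
    (hK : ∀ D, (K D : ℝ) = m * Δ' D) {T : Finset (Set Z)} (hT : ∀ D, K D ≠ 0 → D ∈ T)
    (hm : 0 < m) {gT : Set Z → Z → ℂ} (hgT : ∀ D ∈ T, IsLocalEq (Cm n) D (gT D) y) {e : Z → ℂ}
    (he : HolV (Cm n) e y) (he0 : e y = 0)
    (hgen : ∀ D ∈ T, (∀ᶠ w in 𝓝 y, gT D w = 0) ∨ ∃ (k : ℕ) (u : Z → ℂ), HolV (Cm n) u y ∧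
      u y ≠ 0 ∧ ∀ᶠ w in 𝓝 y, gT D w = e w ^ k * u w) :
    ∃ (N : ℕ) (C : ℝ), (N : ℝ) = m * ∑ᶠ (D : Set Z) (_ : y ∈ D), Δ' D ∧ 0 ≤ C ∧
      ∀ᶠ w in 𝓝 y, ‖∏ D ∈ T, gT D w ^ K D‖ ≤ C * ‖e w‖ ^ N := by
  classical
  have hm0 : (m : ℝ) ≠ 0 := by exact_mod_cast hm.ne'
  have hKne : ∀ D, Δ' D ≠ 0 → K D ≠ 0 := by
    intro D hD h0
    have h1 := hK D
    rw [h0, Nat.cast_zero] at h1
    exact mul_ne_zero hm0 hD h1.symm
  have hbd : ∀ T' : Finset (Set Z), T' ⊆ T → ∃ C : ℝ, 0 ≤ C ∧ ∀ᶠ w in 𝓝 y,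
      ‖∏ D ∈ T', gT D w ^ K D‖ ≤ C := by
    intro T' hT'
    have h1 : HolV (Cm n) (fun w => ∏ D ∈ T', gT D w ^ K D) y :=
      HolV.prod fun D hD => HolV.pow (hgT D (hT' hD)).holAt _
    refine ⟨‖∏ D ∈ T', gT D y ^ K D‖ + 1, by positivity, ?_⟩
    filter_upwards [h1.continuousAt.norm.eventually_lt_const
      (lt_add_one ‖∏ D ∈ T', gT D y ^ K D‖)] with w hw
    exact hw.le
  by_cases hex : ∃ D, Δ' D ≠ 0 ∧ y ∈ D
  · obtain ⟨D₁, hD₁, hyD₁⟩ := hex
    have hsur := hΔ'.2.2.2 y gT fun D hD hyD => hgT D (hT D (hKne D hD))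
    have hord : ∀ D, Δ' D ≠ 0 → y ∈ D → ∃ u : Z → ℂ, HolV (Cm n) u y ∧ u y ≠ 0 ∧
        (∀ᶠ w in 𝓝 y, gT D w = e w * u w) ∧ dV (Cm n) (gT D) y = u y • dV (Cm n) e y := by
      intro D hD hyD
      have hDT := hT D (hKne D hD)
      obtain ⟨ξ, hξ⟩ := hsur fun D' => if D' = ⟨D, hD, hyD⟩ then 1 else 0
      have h1 : dif (Cm n) (gT D) y ξ = 1 := by
        have h2 := congrFun hξ ⟨D, hD, hyD⟩
        simp only [if_true] at h2
        exact h2
      have h3 : dV (Cm n) (gT D) y ξ = 1 := by rw [← dif_eq_dV]; exact h1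
      rcases hgen D hDT with h4 | ⟨k, u, hu, hu0, hue⟩
      · exfalso
        have h5 : dV (Cm n) (gT D) y = dV (Cm n) (fun _ => (0 : ℂ)) y :=
          Filter.EventuallyEq.mfderiv_eq h4
        have h6 : dV (Cm n) (fun _ : Z => (0 : ℂ)) y = 0 := mfderiv_const
        rw [h5, h6] at h3
        exact zero_ne_one h3
      · have hk : 0 < k := by
          rcases Nat.eq_zero_or_pos k with h0 | h0
          · exfalso
            have h4 := hue.self_of_nhds
            rw [(hgT D hDT).mem_iff.1 hyD, h0, pow_zero, one_mul] at h4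
            exact hu0 h4.symm
          · exact h0
        have h5 : dV (Cm n) (gT D) y = dV (Cm n) (fun w => e w ^ k * u w) y :=
          Filter.EventuallyEq.mfderiv_eq hue
        have h6 := dV_pow_mul he hu hk
        rw [he0] at h6
        have hk1 : k = 1 := by
          by_contra hne
          have h7 : k - 1 ≠ 0 := by omega
          rw [zero_pow h7, zero_smul] at h6
          rw [h5, h6] at h3
          exact zero_ne_one h3
        subst hk1
        refine ⟨u, hu, hu0, ?_, ?_⟩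
        · filter_upwards [hue] with w hw
          rw [hw, pow_one]
        · rw [h5, h6]
          simp
    have huniq : ∀ D, Δ' D ≠ 0 → y ∈ D → D = D₁ := by
      intro D hD hyD
      by_contra hne
      obtain ⟨u, hu, hu0, -, hud⟩ := hord D hD hyD
      obtain ⟨u₁, hu₁, hu₁0, -, hud₁⟩ := hord D₁ hD₁ hyD₁
      obtain ⟨ξ, hξ⟩ := hsur fun D' => if D' = ⟨D, hD, hyD⟩ then 1 else 0
      have h1 : dif (Cm n) (gT D) y ξ = 1 := by
        have h2 := congrFun hξ ⟨D, hD, hyD⟩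
        simp only [if_true] at h2
        exact h2
      have h2 : dif (Cm n) (gT D₁) y ξ = 0 := by
        have h2 := congrFun hξ ⟨D₁, hD₁, hyD₁⟩
        have h3 : (⟨D₁, hD₁, hyD₁⟩ : {D // Δ' D ≠ 0 ∧ y ∈ D}) ≠ ⟨D, hD, hyD⟩ := fun h =>
          hne (congrArg Subtype.val h).symm
        simp only [if_neg h3] at h2
        exact h2
      rw [dif_eq_dV, hud] at h1
      rw [dif_eq_dV, hud₁] at h2
      simp only [ContinuousLinearMap.smul_apply, smul_eq_mul] at h1 h2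
      rcases mul_eq_zero.1 h2 with h3 | h3
      · exact hu₁0 h3
      · rw [h3, mul_zero] at h1
        exact zero_ne_one h1
    obtain ⟨u, hu, hu0, hue, -⟩ := hord D₁ hD₁ hyD₁
    have hD₁T := hT D₁ (hKne D₁ hD₁)
    have hsum : ∑ᶠ (D : Set Z) (_ : y ∈ D), Δ' D = Δ' D₁ := by
      rw [finsum_eq_single _ D₁]
      · exact finsum_eq_if.trans (if_pos hyD₁)
      · intro D hD
        rw [finsum_eq_if]
        by_cases hyD : y ∈ D
        · rw [if_pos hyD]
          by_contra h0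
          exact hD (huniq D h0 hyD)
        · rw [if_neg hyD]
    obtain ⟨C, hC0, hC⟩ := hbd (T.erase D₁) (Finset.erase_subset _ _)
    refine ⟨K D₁, C * (‖u y‖ + 1) ^ K D₁, by rw [hsum, hK], by positivity, ?_⟩
    filter_upwards [hC, hue, hu.continuousAt.norm.eventually_lt_const (lt_add_one ‖u y‖)]
      with w h1 h2 h3
    rw [← Finset.mul_prod_erase T _ hD₁T, norm_mul, h2, norm_pow, norm_mul, mul_pow]
    calc ‖e w‖ ^ K D₁ * ‖u w‖ ^ K D₁ * ‖∏ D ∈ T.erase D₁, gT D w ^ K D‖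
        ≤ ‖e w‖ ^ K D₁ * (‖u y‖ + 1) ^ K D₁ * C := by gcongr
      _ = C * (‖u y‖ + 1) ^ K D₁ * ‖e w‖ ^ K D₁ := by ring
  · push Not at hex
    have hsum : ∑ᶠ (D : Set Z) (_ : y ∈ D), Δ' D = 0 := by
      refine (finsum_congr fun D => ?_).trans finsum_zero
      rw [finsum_eq_if]
      by_cases hyD : y ∈ D
      · rw [if_pos hyD]
        by_contra h0
        exact hex D h0 hyD
      · rw [if_neg hyD]
    obtain ⟨C, hC0, hC⟩ := hbd T subset_rfl
    refine ⟨0, C, by rw [hsum]; simp, hC0, ?_⟩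
    filter_upwards [hC] with w hw
    rw [pow_zero, mul_one]
    exact hw

end Vale.Agent.P281.H713.CO
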